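import Crest.Agent.N41.Defs

/-!
# Row 41: the two statements from `MainStmt`
-/

set_option autoImplicit false

namespace Crest.Agent.N41.Main

open Finset Polynomial

theorem of_main_false (hm : MainStmt false) (k : ℕ) (hk : 2 ≤ k) :
    ∃ c : ℝ, 0 < c ∧ c < 1 ∧
      ∀ h : Polynomial ℤ, h.natDegree = k → 0 < h.leadingCoeff →
        (∀ q : ℕ, 1 ≤ q → ∃ t : ℤ, (q : ℤ) ∣ h.eval t) →
        ∃ C : ℝ, 1 ≤ C ∧ ∃ N₀ : ℕ, 1 ≤ N₀ ∧ ∀ N : ℕ, N₀ ≤ N →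
          ∀ A : Finset ℤ, (∀ a ∈ A, 1 ≤ a ∧ a ≤ (N : ℤ)) →
            (∀ a ∈ A, ∀ b ∈ A, ∀ n : ℕ, 1 ≤ n → a - b = h.eval (n : ℤ) → a = b) →
            (A.card : ℝ) ≤ C * (N : ℝ) ^ ((1 : ℝ) - c) := by
  obtain ⟨c, hc0, hc1, H⟩ := hm k hk
  refine ⟨c, hc0, hc1, fun h hdeg hlc hroot => ?_⟩
  obtain ⟨C, hC, N₀, hN₀, H⟩ := H h hdeg hlc fun m hm => by
    obtain ⟨t, ht⟩ := hroot m hm
    exact ⟨t, ht, fun h => absurd h (by simp)⟩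
  exact ⟨C, hC, N₀, hN₀, fun N hN A hA hf =>
    H N hN A hA fun a ha b hb n hn _ hab => hf a ha b hb n hn hab⟩

theorem of_main_true (hm : MainStmt true) (h : Polynomial ℤ)
    (hdeg : 2 ≤ h.natDegree) (hlc : 0 < h.leadingCoeff)
    (hroot : ∀ q : ℕ, 1 ≤ q → ∃ r : ℤ, IsCoprime r (q : ℤ) ∧ (q : ℤ) ∣ h.eval r) :
    ∃ c : ℝ, 0 < c ∧ ∃ C : ℝ, 1 ≤ C ∧ ∀ N : ℕ, 1 ≤ N →
      ∀ A : Finset ℤ, (∀ a ∈ A, 1 ≤ a ∧ a ≤ (N : ℤ)) →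
        (∀ a ∈ A, ∀ b ∈ A, ∀ p : ℕ, p.Prime → a - b = h.eval (p : ℤ) → a = b) →
        (A.card : ℝ) ≤ C * (N : ℝ) ^ ((1 : ℝ) - c) := by
  obtain ⟨c, hc0, hc1, H⟩ := hm _ hdeg
  obtain ⟨C, hC, N₀, hN₀, H⟩ := H h rfl hlc fun m hm => by
    obtain ⟨t, ht1, ht2⟩ := hroot m hm
    exact ⟨t, ht2, fun _ => by simpa using ht1⟩
  refine ⟨c, hc0, max C N₀, le_trans hC (le_max_left _ _), fun N hN A hA hf => ?_⟩
  have hN1 : (1 : ℝ) ≤ N := by exact_mod_cast hN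
  have hpow : (1 : ℝ) ≤ (N : ℝ) ^ ((1 : ℝ) - c) := Real.one_le_rpow hN1 (by linarith)
  by_cases hNN : N₀ ≤ N
  · refine (H N hNN A hA fun a ha b hb n _ hp hab => hf a ha b hb n (by simpa using hp) hab).trans ?_
    gcongr
    exact le_max_left _ _
  · have h1 : A.card ≤ N := by
      have : A ⊆ Icc (1 : ℤ) N := fun a ha => mem_Icc.2 (hA a ha)
      simpa using card_le_card this
    have h2 : (A.card : ℝ) ≤ N₀ := by exact_mod_cast (by omega : A.card ≤ N₀)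
    have h3 : (N₀ : ℝ) ≤ max C N₀ := le_max_right _ _
    have h4 : (0 : ℝ) ≤ N₀ := Nat.cast_nonneg _
    nlinarith

end Crest.Agent.N41.Main
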