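import Crest.Agent.N41.Main.Final
import Crest.Agent.N41.Main.Wrap
import Crest.Agent.N41.Local.Wrap
import Crest.Agent.N41.Local.Norm
import Crest.Agent.N41.ES.Bessel
import Crest.Agent.N41.ES.HC
import Crest.Agent.N41.Step.Main
import Crest.Agent.N41.Poly.Main
import Crest.Agent.N41.Arch.Main
import Crest.Agent.N41.Exp.Cov
import Crest.Agent.N41.Descent
import Crest.Agent.N41.PairApp

/-!
# Row 41: assembly of the modules
-/

set_option autoImplicit false

namespace Crest.Agent.N41.Main

theorem main_of (pr : Bool) (tl : TailStmt) (hnf : Step.NFStmt) (hP : PairStmt pr) :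
    MainStmt pr :=
  main pr Local.localStmt Local.chess (Step.step_of ES.hc tl hnf) ES.liftStmt refine localExp
    Exp.nonconstStmt (descent refine Exp.covStmt Local.transport Local.chess)
    (pairApp pr hP small Arch.arch localExp Exp.nonconstStmt)

end Crest.Agent.N41.Main
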