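import Crest.Agent.N41.DefsC
import Crest.Agent.N41.ES.Op
import Crest.Agent.N41.Local.Chess

/-!
# Row 41, recursion: elementary lemmas
-/

set_option autoImplicit false

namespace Crest.Agent.N41.Main

open Finset Polynomial
open scoped BigOperators
open Local (Om ptA ptB RP tens)
open ES (avg es proj res qq red lift)

section Model

variable {ι : Type} [Fintype ι] [DecidableEq ι] {V : ι → Type} [∀ i, Fintype (V i)]

lemma glob_mono {q : ι → ℕ} {y y' : ℝ} {f : (∀ i, V i) → ℝ} (h : Glob q y f) (hy : y' ≤ y) :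
    Glob q y' f :=
  ⟨fun U hU x => h.bdd U (hU.trans hy) x, fun U s F hU hF =>
    h.bes U s F (hU.trans hy) fun T hT => ⟨(hF T hT).1, (hF T hT).2.trans hy⟩⟩

omit [Fintype ι] [∀ i, Fintype (V i)] in
lemma res_empty (s : ∀ i, V i) (f : (∀ i, V i) → ℝ) : res ∅ s f = f := by
  funext x; simp [res]

lemma empty_mem_low (q : ι → ℕ) {y : ℝ} (hy : 1 ≤ y) : (∅ : Finset ι) ∈ low q ∅ y := by
  simp [low, qq, hy]

omit [Fintype ι] [DecidableEq ι] in
lemma qq_inj {q : ι → ℕ} (hp : ∀ i, (q i).Prime) (hq : Function.Injective q) :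
    Function.Injective (qq q) := by
  classical
  have key : ∀ T : Finset ι, (qq q T).primeFactors = T.image q := by
    intro T
    have h1 : qq q T = ∏ p ∈ T.image q, p := by
      rw [qq, prod_image fun a _ b _ h => hq h]
    rw [h1, Nat.primeFactors_prod]
    intro p hp'
    obtain ⟨i, -, rfl⟩ := mem_image.1 hp'
    exact hp i
  intro S T h
  have := key S
  rw [h, key T] at this
  exact (image_injective hq this).symm

variable {D : ℕ}

/-- multilinear expansion -/
lemma lam_expand {σ : Type} [Fintype σ] (ν : ∀ i, (Om D → V i) → ℝ) (c : ℝ)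
    (f : σ → (∀ i, V i) → ℝ) :
    (Lam ν fun _ x => ∑ a, c * f a x) =
      ∑ τ : Om D → σ, c ^ 6 ^ D * Lam ν fun ω => f (τ ω) := by
  classical
  unfold Lam Local.Lam
  simp only [mul_sum]
  rw [sum_comm]
  refine sum_congr rfl fun x _ => ?_
  rw [Fintype.prod_sum, mul_sum]
  refine sum_congr rfl fun τ _ => ?_
  rw [prod_mul_distrib, prod_const, card_univ, Local.card_Om]
  ring

variable [∀ i, AddCommGroup (V i)]

lemma sum_tens {ν : ∀ i, (Om D → V i) → ℝ} {ρ : ι → ℝ} (hν : ∀ i, Law (ν i) (ρ i)) :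
    ∑ x, tens ν x = 1 := by
  unfold tens
  rw [Local.sum_tens_prod]
  simp [fun i => (hν i).sum_one]

lemma lam_one {ν : ∀ i, (Om D → V i) → ℝ} {ρ : ι → ℝ} (hν : ∀ i, Law (ν i) (ρ i)) :
    (Lam ν fun _ _ => 1) = 1 := by
  unfold Lam Local.Lam
  simpa using sum_tens hν

lemma marginal {ν : ∀ i, (Om D → V i) → ℝ} {ρ : ι → ℝ} (hν : ∀ i, Law (ν i) (ρ i)) (ω : Om D)
    (f : (∀ i, V i) → ℝ) : ∑ x, tens ν x * f (x ω) = 𝔼 z, f z := by
  have h1 : ∀ c : ∀ i, V i, ∑ x, tens ν x * f (x ω) = ∑ x, tens ν x * f (x ω + c) := by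
    intro c
    refine (Fintype.sum_equiv (Equiv.addRight fun _ : Om D => c) _ _ fun x => ?_).symm
    congr 1
    unfold tens
    exact prod_congr rfl fun i _ => ((hν i).transl (fun ω => x ω i) (c i)).symm
  have h2 : ∑ x, tens ν x * f (x ω) = 𝔼 c : ∀ i, V i, ∑ x, tens ν x * f (x ω + c) := by
    rw [← Fintype.expect_const (ι := ∀ i, V i) (∑ x, tens ν x * f (x ω))]
    exact expect_congr rfl fun c _ => h1 c
  rw [h2, Finset.expect_sum_comm]
  have h3 : ∀ x : Om D → ∀ i, V i, 𝔼 c : ∀ i, V i, tens ν x * f (x ω + c) =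
      tens ν x * 𝔼 z, f z := by
    intro x
    rw [← Finset.mul_expect]
    congr 1
    exact Fintype.expect_equiv (Equiv.addLeft (x ω)) _ _ fun _ => rfl
  simp only [h3]
  rw [← sum_mul, sum_tens hν, one_mul]

/-- chessboard estimate with one bound for all the functions -/
lemma chess_const (hc : ChessStmt) (hD : 1 ≤ D) {ν : ∀ i, (Om D → V i) → ℝ} {ρ : ι → ℝ}
    (hν : ∀ i, Law (ν i) (ρ i)) (g : Om D → (∀ i, V i) → ℝ) {Y : ℝ} (hY : 0 < Y)
    (hg : ∀ ω, (Lam ν fun _ => g ω) ≤ Y) : |Lam ν g| ≤ Y := by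
  have hr : (6 ^ D : ℕ) ≠ 0 := by positivity
  have hB : (Y ^ (((6 ^ D : ℕ) : ℝ)⁻¹)) ^ 6 ^ D = Y := Real.rpow_inv_natCast_pow hY.le hr
  have := (hc D ι V ν ρ hD hν).2 g (fun _ => Y ^ (((6 ^ D : ℕ) : ℝ)⁻¹))
    (fun _ => Real.rpow_pos_of_pos hY _) fun ω => by rw [hB]; exact hg ω
  rwa [prod_const, card_univ, Local.card_Om, hB] at this

/-- the mean is at most the chessboard norm -/
lemma expect_le (hc : ChessStmt) (hD : 1 ≤ D) {ν : ∀ i, (Om D → V i) → ℝ} {ρ : ι → ℝ}
    (hν : ∀ i, Law (ν i) (ρ i)) (f : (∀ i, V i) → ℝ) {B : ℝ} (hB : 0 < B)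
    (hf : (Lam ν fun _ => f) ≤ B ^ 6 ^ D) : 𝔼 z, f z ≤ B := by
  classical
  have := (hc D ι V ν ρ hD hν).2 (fun ω => if ω = ptA D then f else fun _ => 1)
    (fun ω => if ω = ptA D then B else 1) (fun ω => by split_ifs <;> [exact hB; exact one_pos])
    fun ω => by
      split_ifs
      · exact hf
      · rw [lam_one hν, one_pow]
  rw [prod_ite_eq' univ (ptA D) fun _ => B] at this
  simp only [mem_univ, if_true] at this
  refine le_trans (le_of_eq ?_) ((le_abs_self _).trans this)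
  rw [← marginal hν (ptA D)]
  unfold Lam Local.Lam
  refine sum_congr rfl fun x _ => ?_
  congr 1
  have : ∀ ω, (if ω = ptA D then f else fun _ => 1) (x ω) =
      if ω = ptA D then f (x (ptA D)) else 1 := by
    intro ω; split_ifs with h
    · rw [h]
    · rfl
  simp only [this]
  rw [prod_ite_eq' univ (ptA D) fun _ => f (x (ptA D))]
  simp

end Model

lemma opBd_mono {V : Type} [AddCommGroup V] [Fintype V] {κ : V → ℝ} {ρ ρ' : ℝ} (h : OpBd κ ρ)
    (h0 : 0 ≤ ρ) (hρ : ρ ≤ ρ') : OpBd κ ρ' := by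
  intro u v hu
  refine (h u v hu).trans ?_
  have h1 : 0 ≤ 𝔼 s, u s ^ 2 := expect_nonneg fun _ _ => sq_nonneg _
  have h2 : 0 ≤ 𝔼 s, v s ^ 2 := expect_nonneg fun _ _ => sq_nonneg _
  gcongr

lemma ptA_ne_ptB {D : ℕ} (hD : 1 ≤ D) : ptA D ≠ ptB D := by
  intro h
  have := congrFun h ⟨0, hD⟩
  simp only [ptA, ptB] at this
  exact absurd this (by decide)

section Lift

variable {ι : Type} [Fintype ι] [DecidableEq ι] (q : ι → ℕ) [∀ i, NeZero (q i)]

lemma expect_lift (A : Finset ℤ) (L : ℝ) : 𝔼 x, lift q A L x = A.card / L := by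
  classical
  have hc : (Fintype.card (∀ i, ZMod (q i)) : ℝ) = qq q univ := by
    rw [Fintype.card_pi]; simp [qq, ZMod.card]
  have hpos : (0 : ℝ) < qq q univ := by
    rw [← hc]; exact_mod_cast Fintype.card_pos
  rw [Fintype.expect_eq_sum_div_card, hc]
  unfold lift
  rw [← mul_sum]
  have : ∑ x : ∀ i, ZMod (q i), ((A.filter fun a => red q a = x).card : ℝ) = A.card := by
    rw [card_eq_sum_card_fiberwise (f := red q) (t := univ) fun _ _ => mem_univ _]
    push_cast
    rfl
  convert_to (qq q univ : ℝ) / L * (A.card : ℝ) / (qq q univ) = _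
  · congr 2
  field_simp

omit [DecidableEq ι] [∀ i, NeZero (q i)] in
/-- a lift is the average of the lifts of the pieces -/
lemma lift_split {σ : Type} [Fintype σ] [DecidableEq σ] (A : Finset ℤ) (cls : ℤ → σ)
    (L L' c : ℝ) (hc : L⁻¹ = c * L'⁻¹) (x : ∀ i, ZMod (q i)) :
    lift q A L x = ∑ a, c * lift q (A.filter fun n => cls n = a) L' x := by
  classical
  unfold lift
  rw [card_eq_sum_card_fiberwise (f := cls) (t := univ) fun _ _ => mem_univ _]
  push_cast
  rw [mul_sum]
  refine sum_congr rfl fun a _ => ?_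
  rw [filter_comm, div_eq_mul_inv, div_eq_mul_inv, hc]
  ring

end Lift

/-- counting the good tuples -/
lemma card_good {Ω : Type} [Fintype Ω] [DecidableEq Ω] {a b : Ω} (hab : a ≠ b) (W : ℕ) [NeZero W]
    (c : ZMod W) :
    (3 * W) ^ Fintype.card Ω ≤ 9 * W * (univ.filter fun τ : Ω → Fin 3 × ZMod W =>
      (τ a).1 = 0 ∧ (τ b).1 = 2 ∧ (τ b).2 - (τ a).2 = c).card := by
  classical
  set G := univ.filter fun τ : Ω → Fin 3 × ZMod W =>
      (τ a).1 = 0 ∧ (τ b).1 = 2 ∧ (τ b).2 - (τ a).2 = c with hG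
  have h1 : (univ : Finset (Ω → Fin 3 × ZMod W)).card ≤
      (G ×ˢ (univ : Finset (Fin 3 × (Fin 3 × ZMod W)))).card := by
    refine card_le_card_of_injOn (fun τ =>
      (Function.update (Function.update τ a (0, (τ a).2)) b (2, (τ a).2 + c), (τ a).1, τ b))
      ?_ ?_
    · intro τ _
      simp [hG, Function.update_of_ne hab]
    · intro τ _ τ' _ h
      simp only [Prod.mk.injEq] at h
      obtain ⟨h1, h2, h3⟩ := h
      funext ω
      by_cases hb : ω = b
      · rw [hb, h3]
      · have := congrFun h1 ω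
        rw [Function.update_of_ne hb, Function.update_of_ne hb] at this
        by_cases ha : ω = a
        · subst ha
          simp only [Function.update_self, Prod.mk.injEq, true_and] at this
          exact Prod.ext h2 this
        · rwa [Function.update_of_ne ha, Function.update_of_ne ha] at this
  rw [card_product, card_univ, card_univ, Fintype.card_fun] at h1
  simp only [Fintype.card_prod, Fintype.card_fin, ZMod.card] at h1
  calc (3 * W) ^ Fintype.card Ω ≤ G.card * (3 * (3 * W)) := h1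
    _ = 9 * W * G.card := by ring

end Crest.Agent.N41.Main
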