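import Crest.Agent.N41.Main.Rec

/-!
# Row 41: choice of the parameters, `MainStmt` from the modules
-/

set_option autoImplicit false

namespace Crest.Agent.N41.Main

open Finset Polynomial Filter Topology
open scoped BigOperators
open Local (Om ptA ptB RP tens)
open ES (avg es proj res qq red lift)

lemma exists_gamma (W k : ℕ) (hW : 1 ≤ W) :
    ∃ γ : ℝ, 0 < γ ∧ k * γ ≤ 1 / 2 ∧ (1 - 1 / (18 * W)) * (3 * (W : ℝ) ^ k) ^ γ ≤ 1 := by
  have hW0 : (0 : ℝ) < W := by exact_mod_cast hW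
  have hc1 : Continuous fun γ : ℝ => (k : ℝ) * γ := by fun_prop
  have hc2 : Continuous fun γ : ℝ => (1 - 1 / (18 * W)) * (3 * (W : ℝ) ^ k) ^ γ :=
    continuous_const.mul (Real.continuous_const_rpow (by positivity))
  have h1 : ∀ᶠ γ in 𝓝 (0 : ℝ), (k : ℝ) * γ < 1 / 2 :=
    hc1.continuousAt.eventually_lt continuousAt_const (by simp)
  have h2 : ∀ᶠ γ in 𝓝 (0 : ℝ), (1 - 1 / (18 * W)) * (3 * (W : ℝ) ^ k) ^ γ < 1 :=
    hc2.continuousAt.eventually_lt continuousAt_const (by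
      have : (0 : ℝ) < 1 / (18 * W) := by positivity
      simp only [Real.rpow_zero]; linarith)
  obtain ⟨γ, ⟨h3, h4⟩, h5⟩ :=
    (((h1.and h2).filter_mono nhdsWithin_le_nhds).and
      (self_mem_nhdsWithin (a := (0 : ℝ)) (s := Set.Ioi 0))).exists
  exact ⟨γ, h5, h3.le, h4.le⟩

lemma St.natDegree_le {pr : Bool} {h : ℤ[X]} {t : ℝ} {r d lam : ℕ} {g : ℤ[X]}
    (hst : St pr h t r d lam g) : g.natDegree ≤ h.natDegree := by
  have h0 : (lam : ℤ) ≠ 0 := by have := hst.lam_pos; omega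
  rw [← natDegree_C_mul (p := g) h0, hst.eq]
  refine natDegree_comp_le.trans ?_
  have : (C (r : ℤ) + C (d : ℤ) * X).natDegree ≤ 1 := by compute_degree
  exact (Nat.mul_le_mul_left _ this).trans (by simp)

lemma ker_nonneg (pr : Bool) (p : ℕ) [NeZero p] (r d : ℕ) (g : ℤ[X]) (t : ZMod p) :
    0 ≤ ker pr p r d g t := by
  unfold ker push
  refine sum_nonneg fun n _ => ?_
  unfold wadm
  split_ifs
  · positivity
  · exact le_rfl

lemma exists_threshold {δ σ₀ : ℝ} (hδ : 0 < δ) (hσ : 0 < σ₀) (Cc x : ℝ) (n : ℕ) :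
    ∃ p₀ : ℕ, n ≤ p₀ ∧ ∀ p : ℕ, p₀ < p →
      (p : ℝ) ^ (-δ) ≤ σ₀ ∧ Cc ≤ (p : ℝ) ^ (δ / 4) ∧ Cc ≤ p ∧ x ≤ p := by
  have h1 : ∀ᶠ p : ℕ in atTop, (p : ℝ) ^ (-δ) ≤ σ₀ :=
    ((tendsto_rpow_neg_atTop hδ).comp tendsto_natCast_atTop_atTop).eventually_le_const hσ
  have h2 : ∀ᶠ p : ℕ in atTop, Cc ≤ (p : ℝ) ^ (δ / 4) :=
    ((tendsto_rpow_atTop (by positivity : 0 < δ / 4)).comp
      tendsto_natCast_atTop_atTop).eventually_ge_atTop Cc
  have h3 : ∀ᶠ p : ℕ in atTop, Cc ≤ (p : ℝ) := tendsto_natCast_atTop_atTop.eventually_ge_atTop Cc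
  have h4 : ∀ᶠ p : ℕ in atTop, x ≤ (p : ℝ) := tendsto_natCast_atTop_atTop.eventually_ge_atTop x
  obtain ⟨m, hm⟩ := eventually_atTop.1 (h1.and (h2.and (h3.and h4)))
  exact ⟨max m n, le_max_right _ _, fun p hp => hm p (le_trans (le_max_left _ _) hp.le)⟩

set_option maxHeartbeats 1600000 in
theorem main (pr : Bool) (hloc : LocalStmt) (hchess : ChessStmt) (hstep : StepStmt)
    (hlift : LiftStmt) (href : RefineStmt) (hexp : LocalExpStmt) (hnc : NonconstStmt)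
    (hdesc : DescentStmt) (hpair : PairAppStmt pr) : MainStmt pr := by
  classical
  intro k hk
  obtain ⟨δ, pE, hδ, hexp⟩ := hexp k
  set D : ℕ := ⌈3 / δ⌉₊ + 1 with hDdef
  have hD : 1 ≤ D := by omega
  have hδD : 3 ≤ δ * D := by
    have h1 : 3 / δ ≤ (D : ℝ) := by
      rw [hDdef]; push_cast; linarith [Nat.le_ceil (3 / δ)]
    rwa [div_le_iff₀' hδ] at h1
  have hk1 : (1 : ℝ) ≤ 2 * k := by
    have : (2 : ℝ) ≤ k := by exact_mod_cast hk
    linarith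
  obtain ⟨Cc, σ₀, hCc, hσ₀, hloc⟩ := hloc D (2 * k) hD hk1
  obtain ⟨p₁, C₁, κ₂, D₀, hC₁, hκ₂, hpair⟩ := hpair k (δ / 4) Cc hk (by positivity) hCc
  set κ := min (δ / 4) κ₂ with hκdef
  have hκ : 0 < κ := lt_min (by positivity) hκ₂
  obtain ⟨K, K', κ', pS, Z₀, hK, hκ', hZ₀, hstep⟩ := hstep D κ hD hκ
  obtain ⟨p₀, hp₀, hthr⟩ := exists_threshold hδ hσ₀ Cc pS (max p₁ pE)
  obtain ⟨W, hW, hpair⟩ := hpair p₀ (le_trans (le_max_left _ _) hp₀)
  obtain ⟨γ, hγ, hγk, hγW⟩ := exists_gamma W k hW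
  set e : ℕ := ⌈κ' / γ⌉₊ with hedef
  have he : κ' ≤ e * γ := by
    have h1 : κ' / γ ≤ (e : ℝ) := Nat.le_ceil _
    rwa [div_le_iff₀ hγ] at h1
  set E : ℕ := K + 1 + k * (e + 1) with hE
  set b : ℕ := 5 * (K' + 1) + (e + 2 * k + 1) + 2 * k * (E * C₁) + 4 * k * (e + 1) with hb
  have hb0 : (0 : ℝ) < b := by
    have : 0 < b := by omega
    exact_mod_cast this
  have hr0 : (0 : ℝ) < ((6 ^ D : ℕ) : ℝ) := by positivity
  refine ⟨min (κ' / (2 * b * ((6 ^ D : ℕ) : ℝ))) (1 / 2), lt_min (by positivity) (by norm_num),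
    lt_of_le_of_lt (min_le_right _ _) (by norm_num), fun h hdeg hlc hroot => ?_⟩
  have h0 : h ≠ 0 := by rintro rfl; simp at hlc
  obtain ⟨r₀, μ, g, hr₀, hμ, -, -, hg, hprim, hgroot⟩ := href pr 0 1 1 h h0 le_rfl le_rfl hroot
  obtain rfl : r₀ = 0 := by omega
  have hst : St pr h μ 0 1 μ g :=
    ⟨one_pos, hμ, by exact_mod_cast hμ, le_rfl, hg, hprim, by simpa using hgroot⟩
  obtain ⟨Ch, N₁, hCh, hpair⟩ := hpair h hdeg hlc
  have hμ1 : (1 : ℝ) ≤ μ := by exact_mod_cast hμ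
  have hZt : Tendsto (fun n : ℕ => (n : ℝ) ^ (b : ℝ)⁻¹) atTop atTop :=
    (tendsto_rpow_atTop (by positivity)).comp tendsto_natCast_atTop_atTop
  obtain ⟨N₀, hN₀⟩ := eventually_atTop.1 ((hZt.eventually_ge_atTop
    (3 + |Z₀| + W + |D₀| + b + Ch + μ)).and
    (tendsto_natCast_atTop_atTop.eventually_ge_atTop N₁))
  refine ⟨μ, hμ1, max N₀ 1, le_max_right _ _, fun n hn A hA hfree => ?_⟩
  have hn1 : 1 ≤ n := le_trans (le_max_right _ _) hn
  obtain ⟨hZ, hN₁⟩ := hN₀ n (le_trans (le_max_left _ _) hn)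
  have hn0 : (0 : ℝ) < n := by exact_mod_cast hn1
  set Z : ℝ := (n : ℝ) ^ (b : ℝ)⁻¹ with hZdef
  have hZb : Z ^ b = n := Real.rpow_inv_natCast_pow hn0.le (by omega)
  have hW0 : (0 : ℝ) ≤ W := Nat.cast_nonneg _
  have hz1 := abs_nonneg Z₀
  have hz2 := le_abs_self Z₀
  have hz3 := abs_nonneg D₀
  have hz4 := le_abs_self D₀
  have hZ3 : 3 ≤ Z := by linarith
  have hZ1 : 1 ≤ Z := by linarith
  have hZ0 : 0 < Z := by linarith
  have hWZ : (W : ℝ) ≤ Z := by linarith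
  have hroot' : ∀ (a c : ℕ), 1 ≤ c → a * c ≤ b → Z ^ a ≤ (n : ℝ) ^ (1 / (c : ℝ)) := by
    intro a c hc hac
    have hc0 : (0 : ℝ) < c := by exact_mod_cast hc
    rw [← hZb, ← Real.rpow_natCast Z b, ← Real.rpow_mul hZ0.le, ← Real.rpow_natCast Z a]
    refine Real.rpow_le_rpow_of_exponent_le hZ1 ?_
    rw [mul_one_div, le_div_iff₀ hc0]
    exact_mod_cast hac
  -- the primes
  set P : Finset ℕ := (Ioc p₀ ⌊(Z ^ E) ^ C₁⌋₊).filter Nat.Prime with hP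
  set q : P → ℕ := fun i => i.1 with hq
  have hqp : ∀ i, (q i).Prime := fun i => (mem_filter.1 i.2).2
  have hqi : Function.Injective q := Subtype.val_injective
  have hq0 : ∀ i, p₀ < q i := fun i => (mem_Ioc.1 (mem_filter.1 i.2).1).1
  have : ∀ i, NeZero (q i) := fun i => ⟨(hqp i).ne_zero⟩
  have hqpos : ∀ i, (1 : ℝ) ≤ q i := fun i => by exact_mod_cast (hqp i).one_le
  set ρ : P → ℝ := fun i => Cc * √((q i : ℝ) ^ (-δ)) with hρdef
  set β : P → ℝ := fun i => Cc * ((q i : ℝ) ^ (-δ)) ^ D with hβdef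
  have hex : ExLaw pr h D q Cc ρ β := by
    intro t r d lam g' hs i
    obtain ⟨hn1, hn2⟩ := hnc pr r d g' hs.prim hs.root
    obtain ⟨-, h2, h3, h4⟩ := hexp pr (q i) r d g' (hqp i)
      (lt_of_le_of_lt (le_trans (le_max_right _ _) hp₀) (hq0 i))
      (hdeg ▸ St.natDegree_le hs) (hn1 _ (hqp i)) hn2
    exact hloc _ _ _ (ker_nonneg pr _ r d g') h2 h3 h4 (by positivity) (hthr _ (hq0 i)).1
  have hρ : ∀ i, 0 ≤ ρ i ∧ ρ i ≤ (q i : ℝ) ^ (-(δ / 4)) := by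
    intro i
    have hqi0 : (0 : ℝ) < q i := by linarith [hqpos i]
    refine ⟨by positivity, ?_⟩
    calc ρ i ≤ (q i : ℝ) ^ (δ / 4) * √((q i : ℝ) ^ (-δ)) := by
          simp only [hρdef]; gcongr; exact (hthr _ (hq0 i)).2.1
      _ = _ := by
          rw [Real.sqrt_eq_rpow, ← Real.rpow_mul hqi0.le, ← Real.rpow_add hqi0]
          congr 1; ring
  have hρ' : ∀ i, 0 ≤ ρ i ∧ ρ i ≤ (q i : ℝ) ^ (-κ) := fun i =>
    ⟨(hρ i).1, (hρ i).2.trans (Real.rpow_le_rpow_of_exponent_le (hqpos i)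
      (neg_le_neg (min_le_left _ _)))⟩
  have hβ : ∀ i, β i ≤ 1 / (q i : ℝ) ^ 2 := by
    intro i
    have hqi0 : (0 : ℝ) < q i := by linarith [hqpos i]
    have h1 : ((q i : ℝ) ^ (-δ)) ^ D ≤ (q i : ℝ) ^ (-(3 : ℝ)) := by
      rw [← Real.rpow_natCast, ← Real.rpow_mul hqi0.le]
      exact Real.rpow_le_rpow_of_exponent_le (hqpos i) (by linarith)
    calc β i ≤ (q i : ℝ) * (q i : ℝ) ^ (-(3 : ℝ)) := by
          simp only [hβdef]; gcongr; exact (hthr _ (hq0 i)).2.2.1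
      _ = _ := by
          rw [Real.rpow_neg hqi0.le, show (3 : ℝ) = ((3 : ℕ) : ℝ) by norm_num, Real.rpow_natCast]
          field_simp
  have hstep' := fun ν nf kap hν => hstep P (fun i => ZMod (q i)) q ρ β ν nf kap Z (by linarith)
    (fun i => (hthr _ (hq0 i)).2.2.2) (qq_inj hqp hqi) (fun i => by rw [ZMod.card]) hν hρ'
  have hcr : CrudeAt D q ρ Z K' κ' := fun ν hν => (hstep' ν ν (fun _ _ => 0) hν).1
  have hst' : StepAt D q ρ β Z K K' κ κ' := fun ν nf kap hν hs => (hstep' ν nf kap hν).2 hs hβ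
  have hpa : ∀ t : ℝ, 1 ≤ t → t ≤ Z ^ e →
      PairAt pr h q Cc (δ / 4) W n (Z ^ K) t ((Z ^ K) ^ (-κ)) := by
    intro t ht1 ht2 r d lam g' hs
    have htW : t * W ≤ Z ^ (e + 1) := by rw [pow_succ]; gcongr
    have hZK : Z ≤ Z ^ K := le_self_pow₀ hZ1 (by omega)
    obtain ⟨W₂, c₀, h1, h2, h3, h4⟩ := hpair P q n (Z ^ E) (Z ^ K) t hN₁ hqp hqi hq0
      (fun p hp hp0 hpZ => ⟨⟨p, mem_filter.2 ⟨mem_Ioc.2 ⟨hp0, Nat.le_floor hpZ⟩, hp⟩⟩, rfl⟩)
      (by linarith) (pow_le_pow_right₀ hZ1 (by omega))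
      (by
        rw [← pow_mul]
        have := hroot' (E * C₁) (2 * k) (by omega) (by rw [hb, mul_comm]; omega)
        simpa using this)
      (by
        rw [← hZb, Real.log_pow]
        have h5 : Real.log Z ≤ Z := (Real.log_le_sub_one_of_pos hZ0).trans (by linarith)
        have h6 : 0 ≤ Real.log Z := Real.log_nonneg hZ1
        calc (b : ℝ) * Real.log Z ≤ Z * Z := by gcongr; linarith
          _ = Z ^ 2 := by ring
          _ ≤ Z ^ E := pow_le_pow_right₀ hZ1 (by omega))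
      (by
        calc Ch * (t * W) ^ k ≤ Z * (Z ^ (e + 1)) ^ k := by gcongr; linarith
          _ = Z ^ (1 + k * (e + 1)) := by ring
          _ ≤ Z ^ E := pow_le_pow_right₀ hZ1 (by omega))
      (by
        have := hroot' (e + 1) (4 * k) (by omega) (by rw [hb, mul_comm]; omega)
        exact htW.trans (by simpa using this))
      ht1 r d lam g' hs
    refine ⟨W₂, c₀, h1, h2, h3, fun A Aa Ab x₀ ca cb ψ a1 a2 a3 a4 a5 a6 a7 a8 a9 a10 a11 T sa sb =>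
      (h4 A Aa Ab x₀ ca cb ψ a1 a2 a3 a4 a5 a6 a7 a8 a9 a10 a11 T sa sb).trans ?_⟩
    exact Real.rpow_le_rpow_of_exponent_le (by linarith) (neg_le_neg (min_le_right _ _))
  obtain ⟨j, hj⟩ := pow_unbounded_of_one_lt (Z ^ e) (by norm_num : (1 : ℝ) < 3)
  have hbd := bound_rec hchess hlift hdesc hD (by omega) hqp hqi hn0 hex hcr hst' hρ hpa hZ3 hW hWZ
    hγ (by rw [hdeg]; exact hγk) (by rw [hdeg]; exact hγW) hκ' he
    (by rw [hdeg, ← hZb]; exact pow_le_pow_right₀ hZ1 (by omega)) j μ hμ1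
    (hj.le.trans (le_mul_of_one_le_right (by positivity) hμ1))
    (le_trans (by linarith) (le_self_pow₀ hZ1 (by omega)))
  set B : ℝ := μ * Z ^ (-(κ' / (2 * ((6 ^ D : ℕ) : ℝ)))) with hB
  have hB0 : 0 < B := by positivity
  have hγ1 : γ ≤ 1 := by
    have : (2 : ℝ) ≤ k := by exact_mod_cast hk
    nlinarith
  have hBr : (μ : ℝ) ^ γ * Z ^ (-(κ' / 2)) ≤ B ^ 6 ^ D := by
    rw [hB, mul_pow, ← Real.rpow_natCast (Z ^ _), ← Real.rpow_mul hZ0.le]
    have h1 : -(κ' / (2 * ((6 ^ D : ℕ) : ℝ))) * ((6 ^ D : ℕ) : ℝ) = -(κ' / 2) := by field_simp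
    rw [h1]
    gcongr
    calc (μ : ℝ) ^ γ ≤ (μ : ℝ) ^ (1 : ℝ) := Real.rpow_le_rpow_of_exponent_le hμ1 hγ1
      _ = μ := Real.rpow_one _
      _ ≤ _ := le_self_pow₀ hμ1 (by positivity)
  refine (card_le_of_bound hchess hD hex hZ1 hn1 hst hB0 (bound_mono hbd hBr) A hA hfree).trans ?_
  have hn1' : (1 : ℝ) ≤ n := by exact_mod_cast hn1
  calc (n : ℝ) * B = μ * (n : ℝ) ^ ((1 : ℝ) - κ' / (2 * b * ((6 ^ D : ℕ) : ℝ))) := by
        rw [hB, hZdef, ← Real.rpow_mul hn0.le, sub_eq_add_neg, Real.rpow_add hn0, Real.rpow_one]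
        have : (b : ℝ)⁻¹ * -(κ' / (2 * ((6 ^ D : ℕ) : ℝ))) =
            -(κ' / (2 * b * ((6 ^ D : ℕ) : ℝ))) := by field_simp
        rw [this]; ring
    _ ≤ _ := by
        gcongr
        exact min_le_left _ _

end Crest.Agent.N41.Main
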