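import Crest.Agent.N41.Main.Step

/-!
# Row 41, recursion: the induction over scales and the start
-/

set_option autoImplicit false

namespace Crest.Agent.N41.Main

open Finset Polynomial
open scoped BigOperators
open Local (Om ptA ptB RP tens)
open ES (avg es proj res qq red lift)

section

variable {ι : Type} [Fintype ι] [DecidableEq ι]
variable {pr : Bool} {h : ℤ[X]} {D : ℕ} {q : ι → ℕ} [∀ i, NeZero (q i)] {Cc : ℝ} {ρ β : ι → ℝ}
  {N Z : ℝ}

/-- **the induction over scales** -/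
lemma bound_rec (hchess : ChessStmt) (hlift : LiftStmt) (hdesc : DescentStmt) (hD : 1 ≤ D)
    (hk : 1 ≤ h.natDegree) (hp : ∀ i, (q i).Prime) (hq : Function.Injective q) (hN : 0 < N)
    (hex : ExLaw pr h D q Cc ρ β) {K K' W e : ℕ} {κ κ' κ₀ γ : ℝ}
    (hcr : CrudeAt D q ρ Z K' κ') (hstep : StepAt D q ρ β Z K K' κ κ')
    (hρ : ∀ i, 0 ≤ ρ i ∧ ρ i ≤ (q i : ℝ) ^ (-κ₀))
    (hpair : ∀ t : ℝ, 1 ≤ t → t ≤ Z ^ e →
      PairAt pr h q Cc κ₀ W N (Z ^ K) t ((Z ^ K) ^ (-κ)))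
    (hZ : 3 ≤ Z) (hW : 1 ≤ W) (hWZ : (W : ℝ) ≤ Z) (hγ : 0 < γ) (hγk : h.natDegree * γ ≤ 1 / 2)
    (hγW : (1 - 1 / (18 * W)) * (3 * (W : ℝ) ^ h.natDegree) ^ γ ≤ 1) (hκ' : 0 < κ')
    (he : κ' ≤ e * γ) (hNZ : Z ^ (5 * (K' + 1) + (e + 2 * h.natDegree + 1)) ≤ N) (j : ℕ) :
    ∀ t : ℝ, 1 ≤ t → Z ^ e ≤ 3 ^ j * t → t ≤ Z ^ (e + 2 * h.natDegree + 1) →
      Bound pr h D q Cc ρ β N Z t (t ^ γ * Z ^ (-(κ' / 2))) := by
  set k := h.natDegree with hkdef
  have hZ0 : 0 < Z := by linarith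
  have hZ1 : 1 ≤ Z := by linarith
  have hW0 : (1 : ℝ) ≤ W := by exact_mod_cast hW
  have crude : ∀ t : ℝ, 1 ≤ t → Z ^ e ≤ t → t ≤ Z ^ (e + 2 * k + 1) →
      Bound pr h D q Cc ρ β N Z t (t ^ γ * Z ^ (-(κ' / 2))) := by
    intro t ht1 ht2 ht3
    refine bound_mono (bound_crude hlift hp hq hcr (by linarith) ?_) ?_
    · rw [le_div_iff₀ (by linarith)]
      refine le_trans ?_ hNZ
      rw [pow_add Z (5 * (K' + 1)), ← pow_mul, mul_comm (K' + 1)]
      gcongr
    · have h1 : Z ^ κ' ≤ t ^ γ := by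
        calc Z ^ κ' ≤ Z ^ ((e : ℝ) * γ) := Real.rpow_le_rpow_of_exponent_le hZ1 he
          _ = (Z ^ e) ^ γ := by rw [Real.rpow_mul hZ0.le, Real.rpow_natCast]
          _ ≤ t ^ γ := Real.rpow_le_rpow (by positivity) ht2 hγ.le
      calc Z ^ (κ' / 2) = Z ^ κ' * Z ^ (-(κ' / 2)) := by
            rw [← Real.rpow_add hZ0]; congr 1; ring
        _ ≤ _ := by gcongr
  induction j with
  | zero => intro t ht1 ht2 ht3; exact crude t ht1 (by simpa using ht2) ht3
  | succ j ih =>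
    intro t ht1 ht2 ht3
    by_cases hc : Z ^ e ≤ t
    · exact crude t ht1 hc ht3
    push Not at hc
    have ht0 : 0 < t := by linarith
    set Y := (3 * (W : ℝ) ^ k * t) ^ γ * Z ^ (-(κ' / 2)) with hY
    have hWk : (1 : ℝ) ≤ (W : ℝ) ^ k := one_le_pow₀ hW0
    refine bound_mono (bound_step (Y := Y) hchess hlift hdesc hD hk hp hq hN hex hstep hρ
      (hpair t ht1 hc.le) (by linarith) ht0 ?_ ?_ ?_) ?_
    · rw [le_div_iff₀ (by linarith)]
      refine le_trans ?_ hNZ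
      calc (Z ^ (K' + 1)) ^ 5 * W * (3 * t) ≤ (Z ^ (K' + 1)) ^ 5 * Z * (Z * Z ^ e) := by gcongr
        _ = Z ^ (5 * (K' + 1) + (e + 2)) := by ring
        _ ≤ _ := pow_le_pow_right₀ hZ1 (by omega)
    · have h1 : 1 ≤ (3 * (W : ℝ) ^ k * t) ^ γ :=
        Real.one_le_rpow (by nlinarith) hγ.le
      have h2 : Z ^ (-κ') ≤ Z ^ (-(κ' / 2)) :=
        Real.rpow_le_rpow_of_exponent_le hZ1 (by linarith)
      have h3 : 0 < Z ^ (-(κ' / 2)) := Real.rpow_pos_of_pos hZ0 _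
      rw [hY]; nlinarith
    · intro m hm1 hmZ t' h1 h2
      have hm0 : (1 : ℝ) ≤ m := by exact_mod_cast hm1
      push_cast at h2
      refine bound_mono (ih t' (by linarith) ?_ ?_) ?_
      · refine ht2.trans ?_
        rw [pow_succ, mul_assoc]
        gcongr
      · refine h2.trans ?_
        calc 3 * ((W : ℝ) * m) ^ k * t ≤ Z * (Z * Z) ^ k * Z ^ e := by gcongr
          _ = Z ^ (e + 2 * k + 1) := by ring
      · have h3 : t' ^ γ ≤ (3 * (W : ℝ) ^ k * t) ^ γ * √m := by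
          calc t' ^ γ ≤ ((3 * (W : ℝ) ^ k * t) * (m : ℝ) ^ k) ^ γ := by
                refine Real.rpow_le_rpow (by linarith) (h2.trans (le_of_eq ?_)) hγ.le
                ring
            _ = (3 * (W : ℝ) ^ k * t) ^ γ * (m : ℝ) ^ ((k : ℝ) * γ) := by
                rw [Real.mul_rpow (by positivity) (by positivity), Real.rpow_mul (by linarith),
                  Real.rpow_natCast]
            _ ≤ _ := by
                rw [Real.sqrt_eq_rpow]
                gcongr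
        have h4 : 0 < Z ^ (-(κ' / 2)) := Real.rpow_pos_of_pos hZ0 _
        calc t' ^ γ * Z ^ (-(κ' / 2)) ≤ (3 * (W : ℝ) ^ k * t) ^ γ * √m * Z ^ (-(κ' / 2)) := by
              gcongr
          _ = Y * √m := by rw [hY]; ring
    · rw [hY, Real.mul_rpow (by positivity) ht0.le]
      have h4 : 0 ≤ t ^ γ * Z ^ (-(κ' / 2)) := by positivity
      calc (1 - 1 / (18 * (W : ℝ))) * ((3 * (W : ℝ) ^ k) ^ γ * t ^ γ * Z ^ (-(κ' / 2))) =
          ((1 - 1 / (18 * (W : ℝ))) * (3 * (W : ℝ) ^ k) ^ γ) * (t ^ γ * Z ^ (-(κ' / 2))) := by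
            ring
        _ ≤ 1 * (t ^ γ * Z ^ (-(κ' / 2))) := by gcongr
        _ = _ := one_mul _

/-- **the start**: from the claim at scale `μ` to the size of the set -/
lemma card_le_of_bound (hchess : ChessStmt) (hD : 1 ≤ D) (hex : ExLaw pr h D q Cc ρ β)
    (hZ : 1 ≤ Z) {n μ : ℕ} (hn : 1 ≤ n) {g : ℤ[X]} (hst : St pr h μ 0 1 μ g) {B : ℝ}
    (hB : 0 < B) (hb : Bound pr h D q Cc ρ β n Z μ (B ^ 6 ^ D)) (A : Finset ℤ)
    (hA : ∀ a ∈ A, 1 ≤ a ∧ a ≤ (n : ℤ)) (hfree : Free pr 0 1 h A) : (A.card : ℝ) ≤ n * B := by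
  classical
  have hμ := hst.lam_pos
  have hμ0 : (0 : ℝ) < μ := by exact_mod_cast hμ
  have hμZ : (μ : ℤ) ≠ 0 := by exact_mod_cast (by omega : μ ≠ 0)
  have hn0 : (0 : ℝ) < n := by exact_mod_cast hn
  choose ν hν using hex μ 0 1 μ g hst
  have hev : ∀ m : ℤ, (μ : ℤ) * g.eval m = h.eval m := by
    intro m
    have := congrArg (Polynomial.eval m) hst.eq
    simpa [eval_comp] using this
  have hcls : ∀ c : ℤ, ((A.filter fun a => a % μ = c).card : ℝ) ≤ n / μ * B := by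
    intro c
    set A' : Finset ℤ := (A.filter fun a => a % μ = c).image fun a : ℤ => a / μ with hA'
    have hmem : ∀ a' ∈ A', c + μ * a' ∈ A := by
      intro a' ha'
      obtain ⟨a, ha, rfl⟩ := mem_image.1 ha'
      obtain ⟨ha1, rfl⟩ := mem_filter.1 ha
      rwa [Int.emod_add_mul_ediv]
    have hcard : A'.card = (A.filter fun a => a % μ = c).card := by
      refine card_image_of_injOn fun a ha b hb hab => ?_
      have h1 := (mem_filter.1 ha).2
      have h2 := (mem_filter.1 hb).2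
      have h3 : a / μ = b / μ := hab
      rw [← Int.emod_add_mul_ediv a μ, ← Int.emod_add_mul_ediv b μ, h1, h2, h3]
    have hI : InI A' ((1 - c) / μ) (n / μ) := by
      intro a' ha'
      obtain ⟨h1, h2⟩ := hA _ (hmem a' ha')
      have h1' : (1 : ℝ) ≤ c + μ * a' := by exact_mod_cast h1
      have h2' : (c : ℝ) + μ * a' ≤ n := by exact_mod_cast h2
      rw [← add_div, div_le_iff₀ hμ0, lt_div_iff₀ hμ0]
      constructor <;> linarith
    have hF : Free pr 0 1 g A' := by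
      intro a ha b hb m hm hpr hab
      have := hfree _ (hmem a ha) _ (hmem b hb) m hm hpr (by rw [← hev, ← hab]; ring)
      exact mul_left_cancel₀ hμZ (by linarith)
    have h1 := expect_le hchess hD (fun i => (hν i).1) _ hB (hb 0 1 μ g A' _ ν hst hI hF hν)
    rw [ES.expect_proj (empty_mem_low q (one_le_pow₀ hZ)), expect_lift,
      div_le_iff₀ (by positivity), hcard] at h1
    linarith
  have hmaps : ∀ a ∈ A, a % (μ : ℤ) ∈ Ico (0 : ℤ) μ := fun a _ =>
    mem_Ico.2 ⟨Int.emod_nonneg _ hμZ, Int.emod_lt_of_pos _ (by omega)⟩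
  rw [card_eq_sum_card_fiberwise (f := fun a => a % (μ : ℤ)) (t := Ico (0 : ℤ) μ) hmaps]
  push_cast
  refine (sum_le_sum fun c _ => hcls c).trans (le_of_eq ?_)
  rw [sum_const, Int.card_Ico]
  simp only [sub_zero, Int.toNat_natCast, nsmul_eq_mul]
  field_simp

end

end Crest.Agent.N41.Main
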