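import Crest.Agent.N41.Main.Basic

/-!
# Row 41, recursion: one step
-/

set_option autoImplicit false

namespace Crest.Agent.N41.Main

open Finset Polynomial
open scoped BigOperators
open Local (Om ptA ptB RP tens)
open ES (avg es proj res qq red lift)

section

variable {ι : Type} [Fintype ι] [DecidableEq ι]

/-- the a priori bound in the model -/
def CrudeAt (D : ℕ) (q : ι → ℕ) [∀ i, NeZero (q i)] (ρ : ι → ℝ) (Z : ℝ) (K' : ℕ) (κ' : ℝ) :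
    Prop :=
  ∀ ν : ∀ i, (Om D → ZMod (q i)) → ℝ, (∀ i, Law (ν i) (ρ i)) →
    ∀ f : (∀ i, ZMod (q i)) → ℝ, Glob q (Z ^ K') f →
      (Lam ν fun _ => proj (low q ∅ (Z ^ 2)) f) ≤ Z ^ (κ' / 2)

/-- the step in the model -/
def StepAt (D : ℕ) (q : ι → ℕ) [∀ i, NeZero (q i)] (ρ β : ι → ℝ) (Z : ℝ) (K K' : ℕ)
    (κ κ' : ℝ) : Prop :=
  ∀ (ν nf : ∀ i, (Om D → ZMod (q i)) → ℝ) (kap : ∀ i, ZMod (q i) → ℝ),
    (∀ i, Law (ν i) (ρ i)) → (∀ i, Split (ν i) (nf i) (kap i) (ρ i) (β i)) →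
    ∀ (f : Om D → (∀ i, ZMod (q i)) → ℝ) (Y : ℝ), (∀ ω, Glob q (Z ^ K') (f ω)) →
      Z ^ (-κ') ≤ Y →
      (∀ (ω : Om D) (S U : Finset ι) (s : ∀ i, ZMod (q i)), S.Nonempty → U ⊆ S →
        (qq q S : ℝ) ≤ Z →
        (Lam ν fun _ => proj (low q S (Z ^ 2)) (res U s (f ω))) ≤ Y * √(qq q S)) →
      (∀ (T : Finset ι) (sa sb : ∀ i, ZMod (q i)), (qq q T : ℝ) ≤ Z ^ (2 * 6 ^ D) →
        |𝔼 x, 𝔼 y, (f (ptA D) x * ind T sa x) * (f (ptB D) y * ind T sb y) *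
          proj (low q ∅ (Z ^ K)) (fun z => ∏ i, kap i (z i)) (y - x)| ≤ (Z ^ K) ^ (-κ)) →
      |Lam ν fun ω => proj (low q ∅ (Z ^ 2)) (f ω)| ≤ Y / 2

/-- the pair bound at scale `t` -/
def PairAt (pr : Bool) (h : ℤ[X]) (q : ι → ℕ) [∀ i, NeZero (q i)] (Cc κ₀ : ℝ) (W : ℕ)
    (N y t ε : ℝ) : Prop :=
  ∀ (r d lam : ℕ) (g : ℤ[X]), St pr h t r d lam g →
    ∃ (W₂ : ℕ) (c₀ : ℤ), 1 ≤ W₂ ∧ W₂ ≤ W ∧ (∀ i, Nat.Coprime W₂ (q i)) ∧
    ∀ (A Aa Ab : Finset ℤ) (x₀ : ℝ) (ca cb : ℤ) (ψ : ∀ i, ZMod (q i) → ℝ),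
      Free pr r d g A → Aa ⊆ A → Ab ⊆ A → InI Aa x₀ (N / (3 * t)) →
      InI Ab (x₀ + 2 * (N / (3 * t))) (N / (3 * t)) →
      (∀ a ∈ Aa, a ≡ ca [ZMOD W₂]) → (∀ b ∈ Ab, b ≡ cb [ZMOD W₂]) →
      cb - ca ≡ c₀ [ZMOD W₂] →
      (∀ i z, 0 ≤ ψ i z ∧ ψ i z ≤ Cc) → (∀ i, 𝔼 z, ker pr (q i) r d g z * ψ i z = 1) →
      (∀ i, OpBd (fun z => ker pr (q i) r d g z * ψ i z) ((q i : ℝ) ^ (-κ₀))) →
      ∀ (T : Finset ι) (sa sb : ∀ i, ZMod (q i)),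
        |𝔼 x, 𝔼 x', (lift q Aa (N / (3 * t) / W₂) x * ind T sa x) *
          (lift q Ab (N / (3 * t) / W₂) x' * ind T sb x') *
          proj (low q ∅ y) (fun z => ∏ i, ker pr (q i) r d g (z i) * ψ i (z i)) (x' - x)| ≤ ε

/-- the third of the interval and the residue class -/
noncomputable def cls (x₀ L : ℝ) (W : ℕ) (a : ℤ) : Fin 3 × ZMod W :=
  (if (a : ℝ) < x₀ + L then 0 else if (a : ℝ) < x₀ + 2 * L then 1 else 2, (a : ZMod W))

lemma inI_cls {A : Finset ℤ} {x₀ L : ℝ} (hA : InI A x₀ (3 * L)) (W : ℕ) (σ : Fin 3 × ZMod W) :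
    InI (A.filter fun a => cls x₀ L W a = σ) (x₀ + ((σ.1 : ℕ) : ℝ) * L) L := by
  intro a ha
  obtain ⟨ha', rfl⟩ := mem_filter.1 ha
  obtain ⟨h1, h2⟩ := hA a ha'
  unfold cls
  split_ifs with h3 h4
  · simp only [Fin.val_zero, Nat.cast_zero]; constructor <;> linarith
  · simp only [Fin.val_one, Nat.cast_one]; constructor <;> linarith
  · simp only [Fin.val_two, Nat.cast_ofNat]; constructor <;> linarith

lemma modEq_cls {A : Finset ℤ} {x₀ L : ℝ} {W : ℕ} [NeZero W] (σ : Fin 3 × ZMod W) :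
    ∀ a ∈ A.filter fun a => cls x₀ L W a = σ, a ≡ (σ.2.val : ℤ) [ZMOD W] := by
  intro a ha
  obtain ⟨-, rfl⟩ := mem_filter.1 ha
  rw [← ZMod.intCast_eq_intCast_iff]
  simp [cls]

lemma free_mono {pr : Bool} {r d : ℕ} {g : ℤ[X]} {A B : Finset ℤ} (h : Free pr r d g A)
    (hB : B ⊆ A) : Free pr r d g B := fun a ha b hb => h a (hB ha) b (hB hb)

variable {pr : Bool} {h : ℤ[X]} {D : ℕ} {q : ι → ℕ} [∀ i, NeZero (q i)] {Cc : ℝ} {ρ β : ι → ℝ}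
  {N Z : ℝ}

lemma bound_mono {t Y Y' : ℝ} (hb : Bound pr h D q Cc ρ β N Z t Y) (hY : Y ≤ Y') :
    Bound pr h D q Cc ρ β N Z t Y' :=
  fun r d lam g A x₀ ν h1 h2 h3 h4 => (hb r d lam g A x₀ ν h1 h2 h3 h4).trans hY

lemma bound_crude (hlift : LiftStmt) (hp : ∀ i, (q i).Prime) (hq : Function.Injective q)
    {K' : ℕ} {κ' t : ℝ} (hcr : CrudeAt D q ρ Z K' κ') (hZ : 2 ≤ Z)
    (ht : (Z ^ (K' + 1)) ^ 5 ≤ N / t) : Bound pr h D q Cc ρ β N Z t (Z ^ (κ' / 2)) := by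
  intro r d lam g A x₀ ν _ hA _ hν
  have h2 : 2 ≤ Z ^ (K' + 1) := hZ.trans (le_self_pow₀ (by linarith) (by omega))
  have := hlift ι q hp hq A x₀ (N / t) (Z ^ (K' + 1)) 1 0 le_rfl (fun i => Nat.coprime_one_left _)
    hA (fun a _ => Int.modEq_one) h2 (by simpa using ht)
  simp only [Nat.cast_one, div_one] at this
  exact hcr ν (fun i => (hν i).1) _
    (glob_mono this (pow_le_pow_right₀ (by linarith) (by omega)))

/-- **one step of the recursion** -/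
lemma bound_step (hchess : ChessStmt) (hlift : LiftStmt) (hdesc : DescentStmt) (hD : 1 ≤ D)
    (hk : 1 ≤ h.natDegree) (hp : ∀ i, (q i).Prime) (hq : Function.Injective q) (hN : 0 < N)
    (hex : ExLaw pr h D q Cc ρ β) {K K' W : ℕ} {κ κ' κ₀ t Y : ℝ}
    (hstep : StepAt D q ρ β Z K K' κ κ') (hρ : ∀ i, 0 ≤ ρ i ∧ ρ i ≤ (q i : ℝ) ^ (-κ₀))
    (hpair : PairAt pr h q Cc κ₀ W N (Z ^ K) t ((Z ^ K) ^ (-κ))) (hZ : 2 ≤ Z) (ht : 0 < t)
    (hL : (Z ^ (K' + 1)) ^ 5 * W ≤ N / (3 * t)) (hY : Z ^ (-κ') ≤ Y)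
    (hind : ∀ m : ℕ, 1 ≤ m → (m : ℝ) ≤ Z → ∀ t' : ℝ, 3 * t ≤ t' →
      t' ≤ 3 * ((W * m : ℕ) : ℝ) ^ h.natDegree * t → Bound pr h D q Cc ρ β N Z t' (Y * √m)) :
    Bound pr h D q Cc ρ β N Z t ((1 - 1 / (18 * W)) * Y) := by
  classical
  intro r d lam g A x₀ ν hst hA hfree hν
  obtain ⟨W₂, c₀, hW1, hW2, hcop, hpair⟩ := hpair r d lam g hst
  have : NeZero W₂ := ⟨by omega⟩
  have hY0 : 0 < Y := lt_of_lt_of_le (Real.rpow_pos_of_pos (by linarith) _) hY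
  have hW0 : (0 : ℝ) < W₂ := by exact_mod_cast hW1
  set L := N / (3 * t) with hLdef
  have hA' : InI A x₀ (3 * L) := by
    have : 3 * L = N / t := by rw [hLdef]; field_simp
    rwa [this]
  set P : Fin 3 × ZMod W₂ → Finset ℤ := fun σ => A.filter fun a => cls x₀ L W₂ a = σ with hP
  set f : Fin 3 × ZMod W₂ → (∀ i, ZMod (q i)) → ℝ := fun σ => lift q (P σ) (L / W₂) with hf
  have hlaw : ∀ i, Law (ν i) (ρ i) := fun i => (hν i).1
  -- fibres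
  have hfib : ∀ σ (S U : Finset ι) (s : ∀ i, ZMod (q i)), U ⊆ S → (qq q S : ℝ) ≤ Z →
      (Lam ν fun _ => proj (low q S (Z ^ 2)) (res U s (f σ))) ≤ Y * √(qq q S) := by
    intro σ S U s hU hS
    have hS1 : 1 ≤ qq q S := Nat.one_le_iff_ne_zero.2 (prod_ne_zero_iff.2 fun i _ => (hp i).ne_zero)
    refine hdesc pr h D ι q Cc ρ β N Z t _ hD hk hp hq hN ht (by positivity) hex r d lam g (P σ)
      _ ν W₂ _ S U s hst (free_mono hfree (filter_subset _ _)) (inI_cls hA' W₂ σ) hW1 hcop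
      (modEq_cls σ) hν hU fun t' h1 h2 => hind _ hS1 hS t' h1 (h2.trans ?_)
    gcongr
  have hall : ∀ τ : Om D → Fin 3 × ZMod W₂,
      (Lam ν fun ω => proj (low q ∅ (Z ^ 2)) (f (τ ω))) ≤ Y := by
    intro τ
    refine (le_abs_self _).trans (chess_const hchess hD hlaw _ hY0 fun ω => ?_)
    have := hfib (τ ω) ∅ ∅ 0 Subset.rfl (by simp [qq]; linarith)
    simpa [res_empty, qq] using this
  have hglob : ∀ σ, Glob q (Z ^ K') (f σ) := by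
    intro σ
    have h2 : 2 ≤ Z ^ (K' + 1) := hZ.trans (le_self_pow₀ (by linarith) (by omega))
    refine glob_mono (hlift ι q hp hq (P σ) _ L (Z ^ (K' + 1)) W₂ _ hW1 hcop (inI_cls hA' W₂ σ)
      (modEq_cls σ) h2 (le_trans ?_ hL)) (pow_le_pow_right₀ (by linarith) (by omega))
    gcongr
  have hgood : ∀ τ : Om D → Fin 3 × ZMod W₂, (τ (ptA D)).1 = 0 → (τ (ptB D)).1 = 2 →
      (τ (ptB D)).2 - (τ (ptA D)).2 = (c₀ : ZMod W₂) →
      (Lam ν fun ω => proj (low q ∅ (Z ^ 2)) (f (τ ω))) ≤ Y / 2 := by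
    intro τ ha hb hc
    choose nf ψ hsp hψ using fun i => (hν i).2
    refine (le_abs_self _).trans (hstep ν nf _ hlaw hsp (fun ω => f (τ ω)) Y (fun ω => hglob _) hY
      (fun ω S U s _ hU hS => hfib _ S U s hU hS) fun T sa sb _ => ?_)
    refine hpair A (P (τ (ptA D))) (P (τ (ptB D))) x₀ _ _ ψ hfree (filter_subset _ _)
      (filter_subset _ _) ?_ ?_ (modEq_cls _) (modEq_cls _) ?_ hψ (fun i => (hsp i).kap_mean)
      (fun i => opBd_mono (hsp i).op (hρ i).1 (hρ i).2) T sa sb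
    · have := inI_cls hA' W₂ (τ (ptA D))
      rw [ha] at this
      simpa using this
    · have := inI_cls hA' W₂ (τ (ptB D))
      rw [hb] at this
      simpa using this
    · rw [← ZMod.intCast_eq_intCast_iff]
      push_cast
      simpa using hc
  -- expansion
  set c : ℝ := (3 * W₂ : ℝ)⁻¹ with hc
  have hsplit : lift q A (N / t) = fun x => ∑ σ, c * f σ x := by
    funext x
    refine lift_split q A (cls x₀ L W₂) _ _ c ?_ x
    rw [hc, hLdef]; field_simp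
  have hproj : proj (low q ∅ (Z ^ 2)) (lift q A (N / t)) =
      fun x => ∑ σ, c * proj (low q ∅ (Z ^ 2)) (f σ) x := by
    rw [hsplit, ES.proj_sum]
    simp only [ES.proj_smul]
  rw [hproj, lam_expand ν c fun σ => proj (low q ∅ (Z ^ 2)) (f σ)]
  set G := univ.filter fun τ : Om D → Fin 3 × ZMod W₂ =>
    (τ (ptA D)).1 = 0 ∧ (τ (ptB D)).1 = 2 ∧ (τ (ptB D)).2 - (τ (ptA D)).2 = (c₀ : ZMod W₂)
    with hG
  have hcard := card_good (ptA_ne_ptB hD) W₂ (c₀ : ZMod W₂)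
  rw [Local.card_Om, ← hG] at hcard
  have hcard' : ((3 * W₂ : ℝ)) ^ 6 ^ D ≤ 9 * W₂ * G.card := by exact_mod_cast hcard
  have hsum : ∑ τ : Om D → Fin 3 × ZMod W₂, (Lam ν fun ω => proj (low q ∅ (Z ^ 2)) (f (τ ω))) ≤
      (3 * W₂ : ℝ) ^ 6 ^ D * Y - G.card * (Y / 2) := by
    calc _ ≤ ∑ τ : Om D → Fin 3 × ZMod W₂, (Y - if τ ∈ G then Y / 2 else 0) := by
          refine sum_le_sum fun τ _ => ?_
          split_ifs with hτ
          · obtain ⟨-, h1, h2, h3⟩ := mem_filter.1 hτ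
            linarith [hgood τ h1 h2 h3]
          · simpa using hall τ
      _ = _ := by
          rw [sum_sub_distrib, sum_const, card_univ, Fintype.card_fun, Local.card_Om,
            sum_ite_mem, univ_inter, sum_const]
          simp [ZMod.card]
  rw [← mul_sum]
  have hR : (0 : ℝ) < (3 * W₂ : ℝ) ^ 6 ^ D := by positivity
  have hcR : c ^ 6 ^ D = ((3 * W₂ : ℝ) ^ 6 ^ D)⁻¹ := by rw [hc, inv_pow]
  rw [hcR, inv_mul_le_iff₀ hR]
  refine hsum.trans ?_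
  have hWW : (W₂ : ℝ) ≤ W := by exact_mod_cast hW2
  have h1 : (3 * W₂ : ℝ) ^ 6 ^ D * (1 / (18 * W)) ≤ G.card / 2 := by
    rw [mul_one_div, div_le_div_iff₀ (by linarith) (by norm_num)]
    have : (0 : ℝ) ≤ G.card := Nat.cast_nonneg _
    nlinarith
  nlinarith

end

end Crest.Agent.N41.Main
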